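import Vale.Agent.P203.Cox0.GeomRep

/-! P203, block VIN, part 1: the Gram matrix on a finite set `U` of simple reflections as an
`M`-matrix.

* `BU M U x r = ∑ t ∈ U, gram M r t * x t`.
* `Conn M U`: no nontrivial splitting of `U` into two commuting pieces.
* `nonneg_of_BU_nonneg`, `pos_of_BU_nonneg`: the inverse is (strictly) positive.
* `quad_lower`: positive definiteness, from a positive vector `w` with `B_U w > 0`.
* `BU_surj`, `BU_inj`: solving `B_U x = y`.
* `perron`: a connected nonempty `U` has `w > 0` with `B_U w = l w`. -/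

set_option linter.all false

namespace Vale.Agent.P203.Vin

open Vale.Agent.P203.Cox

variable {B : Type*} {M : CoxeterMatrix B}

theorem gram_nonpos {i j : B} (h : i ≠ j) : gram M i j ≤ 0 := by
  unfold gram
  split_ifs with h0
  · norm_num
  · have hm1 : M i j ≠ 1 := M.off_diagonal i j h
    have hm2 : (2 : ℝ) ≤ M i j := by exact_mod_cast (by omega : 2 ≤ M i j)
    have hpi := Real.pi_pos
    have : 0 ≤ Real.cos (Real.pi / M i j) := by
      apply Real.cos_nonneg_of_mem_Icc
      constructor
      · have : 0 ≤ Real.pi / M i j := by positivity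
        linarith
      · exact div_le_div_of_nonneg_left hpi.le (by norm_num) hm2
    linarith

theorem gram_neg {i j : B} (h : i ≠ j) (h2 : M i j ≠ 2) : gram M i j < 0 := by
  unfold gram
  split_ifs with h0
  · norm_num
  · have hm1 : M i j ≠ 1 := M.off_diagonal i j h
    have hm2 : (3 : ℝ) ≤ M i j := by exact_mod_cast (by omega : 3 ≤ M i j)
    have hpi := Real.pi_pos
    have : 0 < Real.cos (Real.pi / M i j) := by
      apply Real.cos_pos_of_mem_Ioo
      constructor
      · have : 0 ≤ Real.pi / M i j := by positivity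
        linarith
      · exact div_lt_div_of_pos_left hpi (by norm_num) (by linarith)
    linarith

theorem gram_eq_zero {i j : B} (h2 : M i j = 2) : gram M i j = 0 := by
  unfold gram
  rw [if_neg (by omega), h2]
  simp

theorem gram_le {i j : B} : gram M i j ≤ 2 := by
  by_cases h : i = j
  · subst h; rw [gram_self]
  · linarith [gram_nonpos (M := M) h]

theorem neg_two_le_gram {i j : B} : -2 ≤ gram M i j := by
  unfold gram
  split_ifs
  · norm_num
  · linarith [Real.cos_le_one (Real.pi / M i j)]

theorem abs_gram_le {i j : B} : |gram M i j| ≤ 2 :=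
  abs_le.2 ⟨neg_two_le_gram, gram_le⟩

/-- `(B_U x)_r` -/
noncomputable def BU (M : CoxeterMatrix B) (U : Finset B) (x : B → ℝ) (r : B) : ℝ :=
  ∑ t ∈ U, gram M r t * x t

/-- `U` is connected: it does not split into two commuting nonempty pieces -/
def Conn (M : CoxeterMatrix B) (U : Finset B) : Prop :=
  ∀ A ⊆ U, A.Nonempty → A ≠ U → ∃ s ∈ A, ∃ t ∈ U, t ∉ A ∧ M s t ≠ 2

variable {U : Finset B} {w x y : B → ℝ}

theorem BU_add (r : B) : BU M U (fun t => x t + y t) r = BU M U x r + BU M U y r := by
  simp only [BU, mul_add, Finset.sum_add_distrib]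

theorem BU_smul (c : ℝ) (r : B) : BU M U (fun t => c * x t) r = c * BU M U x r := by
  simp only [BU, Finset.mul_sum]
  exact Finset.sum_congr rfl fun t _ => by ring

theorem BU_sub (r : B) : BU M U (fun t => x t - y t) r = BU M U x r - BU M U y r := by
  simp only [BU, mul_sub, Finset.sum_sub_distrib]

theorem BU_congr (h : ∀ t ∈ U, x t = y t) (r : B) : BU M U x r = BU M U y r :=
  Finset.sum_congr rfl fun t ht => by rw [h t ht]

/-- symmetry of the Gram matrix -/
theorem BU_symm : ∑ r ∈ U, x r * BU M U y r = ∑ r ∈ U, y r * BU M U x r := by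
  simp only [BU, Finset.mul_sum]
  rw [Finset.sum_comm]
  refine Finset.sum_congr rfl fun r _ => Finset.sum_congr rfl fun t _ => ?_
  rw [gram_comm]; ring

theorem nonneg_of_BU_nonneg (hw : ∀ r ∈ U, 0 < w r) (hB : ∀ r ∈ U, 0 < BU M U w r)
    (hx : ∀ r ∈ U, 0 ≤ BU M U x r) : ∀ r ∈ U, 0 ≤ x r := by
  intro r0 hr0
  obtain ⟨r, hr, hmin⟩ := Finset.exists_min_image U (fun r => x r / w r) ⟨r0, hr0⟩
  set m := x r / w r with hm
  have hge : ∀ t ∈ U, m * w t ≤ x t := fun t ht => by
    have := hmin t ht
    rwa [le_div_iff₀ (hw t ht)] at this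
  have hreq : x r = m * w r := by rw [hm, div_mul_cancel₀ _ (hw r hr).ne']
  have h1 : BU M U x r ≤ m * BU M U w r := by
    rw [BU, BU, Finset.mul_sum]
    refine Finset.sum_le_sum fun t ht => ?_
    by_cases h : r = t
    · subst h; rw [hreq]; linarith
    · have := mul_le_mul_of_nonpos_left (hge t ht) (gram_nonpos (M := M) h)
      linarith
  have h2 : 0 ≤ m := by
    by_contra hneg
    push Not at hneg
    have := hx r hr
    have := mul_neg_of_neg_of_pos hneg (hB r hr)
    linarith
  exact (mul_nonneg h2 (hw r0 hr0).le).trans (hge r0 hr0)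

/-- on a connected set, a nonnegative vector with `B_U x ≥ 0` (or `B_U x = l x`) is zero or
positive -/
theorem pos_of_conn (hc : Conn M U) (hx : ∀ r ∈ U, 0 ≤ x r)
    (hB : ∀ r ∈ U, x r = 0 → 0 ≤ BU M U x r) (hne : ∃ r ∈ U, x r ≠ 0) : ∀ r ∈ U, 0 < x r := by
  classical
  by_contra hcon
  push Not at hcon
  obtain ⟨r0, hr0, hr0x⟩ := hcon
  obtain ⟨s, hs, t, ht, htA, hst⟩ := hc (U.filter fun r => x r = 0) (Finset.filter_subset _ _)
    ⟨r0, Finset.mem_filter.2 ⟨hr0, le_antisymm hr0x (hx r0 hr0)⟩⟩ (by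
      intro h
      obtain ⟨r, hr, hrx⟩ := hne
      rw [← h] at hr
      exact hrx (Finset.mem_filter.1 hr).2)
  have hsU := (Finset.mem_filter.1 hs).1
  have hs0 := (Finset.mem_filter.1 hs).2
  have htx : 0 < x t := lt_of_le_of_ne (hx t ht) fun h => htA (Finset.mem_filter.2 ⟨ht, h.symm⟩)
  have hne : s ≠ t := fun h => htA (h ▸ hs)
  have h1 : BU M U x s < 0 := by
    rw [BU]
    have : ∑ t ∈ U, gram M s t * x t < ∑ t ∈ U, (0 : ℝ) := by
      refine Finset.sum_lt_sum (fun u hu => ?_) ⟨t, ht, mul_neg_of_neg_of_pos (gram_neg hne hst) htx⟩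
      by_cases h : s = u
      · subst h; rw [hs0, mul_zero]
      · exact mul_nonpos_of_nonpos_of_nonneg (gram_nonpos h) (hx u hu)
    simpa using this
  linarith [hB s hsU hs0]

theorem pos_of_BU_nonneg (hc : Conn M U) (hw : ∀ r ∈ U, 0 < w r) (hB : ∀ r ∈ U, 0 < BU M U w r)
    (hx : ∀ r ∈ U, 0 ≤ BU M U x r) (hne : ∃ r ∈ U, x r ≠ 0) : ∀ r ∈ U, 0 < x r :=
  pos_of_conn hc (nonneg_of_BU_nonneg hw hB hx) (fun r hr _ => hx r hr) hne

theorem quad_ge (hw : ∀ r ∈ U, 0 < w r) (x : B → ℝ) :
    ∑ r ∈ U, x r ^ 2 / w r * BU M U w r ≤ ∑ r ∈ U, x r * BU M U x r := by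
  have key : ∀ r ∈ U, ∀ t ∈ U, (gram M r t * w t * (x r ^ 2 / w r)
      + gram M t r * w r * (x t ^ 2 / w t)) / 2 ≤ x r * (gram M r t * x t) := by
    intro r hr t ht
    have hwr := hw r hr
    have hwt := hw t ht
    by_cases h : r = t
    · subst h
      apply le_of_eq
      field_simp
      ring
    · rw [gram_comm t r]
      have h1 : 2 * (x r * x t) ≤ w t * (x r ^ 2 / w r) + w r * (x t ^ 2 / w t) := by
        have : w t * (x r ^ 2 / w r) + w r * (x t ^ 2 / w t) - 2 * (x r * x t) =
            w r * w t * (x r / w r - x t / w t) ^ 2 := by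
          field_simp
          ring
        have h2 : 0 ≤ w r * w t * (x r / w r - x t / w t) ^ 2 := by positivity
        linarith
      have := mul_le_mul_of_nonpos_left h1 (gram_nonpos (M := M) h)
      linarith
  have h1 : ∑ r ∈ U, x r * BU M U x r = ∑ r ∈ U, ∑ t ∈ U, x r * (gram M r t * x t) := by
    simp only [BU, Finset.mul_sum]
  have h2 : ∑ r ∈ U, x r ^ 2 / w r * BU M U w r =
      ∑ r ∈ U, ∑ t ∈ U, gram M r t * w t * (x r ^ 2 / w r) := by
    simp only [BU, Finset.mul_sum]
    exact Finset.sum_congr rfl fun r _ => Finset.sum_congr rfl fun t _ => by ring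
  have h3 : ∑ r ∈ U, ∑ t ∈ U, gram M t r * w r * (x t ^ 2 / w t) =
      ∑ r ∈ U, ∑ t ∈ U, gram M r t * w t * (x r ^ 2 / w r) := Finset.sum_comm
  have h4 : ∑ r ∈ U, ∑ t ∈ U, (gram M r t * w t * (x r ^ 2 / w r)
      + gram M t r * w r * (x t ^ 2 / w t)) / 2 =
      ∑ r ∈ U, ∑ t ∈ U, gram M r t * w t * (x r ^ 2 / w r) := by
    simp only [← Finset.sum_div, Finset.sum_add_distrib]
    rw [h3]; ring
  rw [h1, h2, ← h4]
  exact Finset.sum_le_sum fun r hr => Finset.sum_le_sum fun t ht => key r hr t ht

/-- positive definiteness, quantitative form -/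
theorem quad_lower (hw : ∀ r ∈ U, 0 < w r) (hB : ∀ r ∈ U, 0 < BU M U w r) :
    ∃ c : ℝ, 0 < c ∧ ∀ x : B → ℝ, c * ∑ r ∈ U, x r ^ 2 ≤ ∑ r ∈ U, x r * BU M U x r := by
  rcases U.eq_empty_or_nonempty with rfl | hne
  · exact ⟨1, one_pos, fun x => by simp⟩
  · obtain ⟨r, hr, hmin⟩ := Finset.exists_min_image U (fun r => BU M U w r / w r) hne
    refine ⟨BU M U w r / w r, div_pos (hB r hr) (hw r hr), fun x => ?_⟩
    refine le_trans ?_ (quad_ge hw x)
    rw [Finset.mul_sum]
    refine Finset.sum_le_sum fun t ht => ?_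
    have h1 := hmin t ht
    have h2 : x t ^ 2 / w t * BU M U w t = BU M U w t / w t * x t ^ 2 := by
      ring
    rw [h2]
    exact mul_le_mul_of_nonneg_right h1 (sq_nonneg _)

theorem quad_pos (hw : ∀ r ∈ U, 0 < w r) (hB : ∀ r ∈ U, 0 < BU M U w r)
    (hx : ∃ r ∈ U, x r ≠ 0) : 0 < ∑ r ∈ U, x r * BU M U x r := by
  obtain ⟨c, hc, h⟩ := quad_lower hw hB
  obtain ⟨r, hr, hrx⟩ := hx
  have : 0 < ∑ r ∈ U, x r ^ 2 :=
    Finset.sum_pos' (fun t _ => sq_nonneg _) ⟨r, hr, by positivity⟩
  exact (mul_pos hc this).trans_le (h x)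

theorem BU_inj (hw : ∀ r ∈ U, 0 < w r) (hB : ∀ r ∈ U, 0 < BU M U w r)
    (h : ∀ r ∈ U, BU M U x r = BU M U y r) : ∀ r ∈ U, x r = y r := by
  by_contra hcon
  push Not at hcon
  obtain ⟨r, hr, hne⟩ := hcon
  have := quad_pos (x := fun t => x t - y t) hw hB ⟨r, hr, sub_ne_zero.2 hne⟩
  have h0 : ∑ r ∈ U, (x r - y r) * BU M U (fun t => x t - y t) r = 0 :=
    Finset.sum_eq_zero fun t ht => by rw [BU_sub, h t ht, sub_self, mul_zero]
  exact absurd h0 this.ne'

open Classical in
/-- the linear system `B_U x = y` is solvable -/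
theorem BU_surj (hw : ∀ r ∈ U, 0 < w r) (hB : ∀ r ∈ U, 0 < BU M U w r) (y : B → ℝ) :
    ∃ x : B → ℝ, (∀ r ∈ U, BU M U x r = y r) ∧ ∀ r ∉ U, x r = 0 := by
  let L : (U → ℝ) →ₗ[ℝ] (U → ℝ) :=
    { toFun := fun z r => BU M U (fun t => if h : t ∈ U then z ⟨t, h⟩ else 0) r
      map_add' := fun z z' => by
        funext r
        simp only [Pi.add_apply]
        rw [← BU_add]
        refine BU_congr (fun t ht => ?_) _
        simp [ht]
      map_smul' := fun c z => by
        funext r
        simp only [Pi.smul_apply, smul_eq_mul, RingHom.id_apply]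
        rw [← BU_smul]
        refine BU_congr (fun t ht => ?_) _
        simp [ht] }
  have hinj : Function.Injective L := by
    intro z z' h
    funext r
    have h1 : ∀ r ∈ U, BU M U (fun t => if h : t ∈ U then z ⟨t, h⟩ else 0) r =
        BU M U (fun t => if h : t ∈ U then z' ⟨t, h⟩ else 0) r := fun r hr =>
      congrFun h ⟨r, hr⟩
    have h2 := BU_inj hw hB h1 r.1 r.2
    simpa using h2
  have hsurj : Function.Surjective L := LinearMap.injective_iff_surjective.1 hinj
  obtain ⟨z, hz⟩ := hsurj fun r => y r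
  refine ⟨fun t => if h : t ∈ U then z ⟨t, h⟩ else 0, fun r hr => congrFun hz ⟨r, hr⟩,
    fun r hr => by simp [hr]⟩

/-- restriction of a vector to a smaller set -/
theorem BU_subset [DecidableEq B] {A : Finset B} (hA : A ⊆ U) (r : B) :
    BU M A x r = BU M U x r - ∑ t ∈ U \ A, gram M r t * x t := by
  rw [BU, BU, ← Finset.sum_sdiff hA]; ring

/-! ### Perron vector -/

theorem perron (hne : U.Nonempty) (hc : Conn M U) :
    ∃ (l : ℝ) (w : B → ℝ), (∀ r ∈ U, 0 < w r) ∧ (∀ r ∉ U, w r = 0) ∧
      ∀ r ∈ U, BU M U w r = l * w r := by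
  classical
  let ext : (U → ℝ) → B → ℝ := fun z t => if h : t ∈ U then z ⟨t, h⟩ else 0
  let Q : (U → ℝ) → ℝ := fun z => ∑ r : U, ∑ t : U, gram M r t * z r * z t
  let N : (U → ℝ) → ℝ := fun z => ∑ r : U, z r ^ 2
  have hQc : Continuous Q := by
    refine continuous_finset_sum _ fun r _ => continuous_finset_sum _ fun t _ => ?_
    exact (continuous_const.mul (continuous_apply r)).mul (continuous_apply t)
  have hNc : Continuous N :=
    continuous_finset_sum _ fun r _ => (continuous_apply r).pow 2
  let K : Set (U → ℝ) := {z | N z = 1 ∧ ∀ r, 0 ≤ z r}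
  have hKclosed : IsClosed K := by
    refine IsClosed.inter (isClosed_eq hNc continuous_const) ?_
    have : {z : U → ℝ | ∀ r, 0 ≤ z r} = ⋂ r, {z | 0 ≤ z r} := by ext z; simp
    show IsClosed {z : U → ℝ | ∀ r, 0 ≤ z r}
    rw [this]
    exact isClosed_iInter fun r => isClosed_le continuous_const (continuous_apply r)
  have hKc : IsCompact K := by
    refine IsCompact.of_isClosed_subset (isCompact_univ_pi fun _ : U => isCompact_Icc (a := (0:ℝ)) (b := 1))
      hKclosed ?_
    rintro z ⟨h1, h2⟩ r _
    refine ⟨h2 r, ?_⟩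
    have h3 : z r ^ 2 ≤ 1 := by
      rw [← h1]
      exact Finset.single_le_sum (f := fun r => z r ^ 2) (fun i _ => sq_nonneg _) (Finset.mem_univ r)
    nlinarith [h2 r]
  obtain ⟨r0, hr0⟩ := hne
  have hKne : K.Nonempty := by
    refine ⟨fun r => if r = ⟨r0, hr0⟩ then 1 else 0, ?_, fun r => ?_⟩
    · simp only [N]
      rw [Finset.sum_eq_single (⟨r0, hr0⟩ : U)]
      · simp
      · intro b _ hb; simp [hb]
      · simp
    · dsimp only; split_ifs <;> norm_num
  obtain ⟨z, ⟨hz1, hz2⟩, hzmin⟩ := hKc.exists_isMinOn hKne hQc.continuousOn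
  set l := Q z with hl
  -- the minimum over all vectors
  have habs : ∀ v : U → ℝ, Q (fun r => |v r|) ≤ Q v := by
    intro v
    refine Finset.sum_le_sum fun r _ => Finset.sum_le_sum fun t _ => ?_
    by_cases h : (r : B) = t
    · have : r = t := Subtype.ext h
      subst this
      rw [mul_assoc, mul_assoc, abs_mul_abs_self]
    · rw [mul_assoc, mul_assoc, ← abs_mul]
      exact mul_le_mul_of_nonpos_left (le_abs_self _) (gram_nonpos h)
  have hNabs : ∀ v : U → ℝ, N (fun r => |v r|) = N v := fun v => by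
    simp only [N, sq_abs]
  have hscale : ∀ (v : U → ℝ) (a : ℝ), Q (fun r => a * v r) = a ^ 2 * Q v := by
    intro v a
    simp only [Q, Finset.mul_sum]
    exact Finset.sum_congr rfl fun r _ => Finset.sum_congr rfl fun t _ => by ring
  have hNscale : ∀ (v : U → ℝ) (a : ℝ), N (fun r => a * v r) = a ^ 2 * N v := by
    intro v a
    simp only [N, Finset.mul_sum]
    exact Finset.sum_congr rfl fun r _ => by ring
  have hall : ∀ v : U → ℝ, l * N v ≤ Q v := by
    intro v
    refine le_trans ?_ (habs v)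
    rw [← hNabs v]
    set u : U → ℝ := fun r => |v r| with hu
    have hNn : 0 ≤ N u := Finset.sum_nonneg fun i _ => sq_nonneg _
    rcases hNn.eq_or_lt with h0 | hpos
    · have hu0 : ∀ r, u r = 0 := fun r => by
        have := (Finset.sum_eq_zero_iff_of_nonneg (fun i _ => sq_nonneg (u i))).1 h0.symm r
          (Finset.mem_univ r)
        exact pow_eq_zero_iff (two_ne_zero) |>.1 this
      have : Q u = 0 := by
        simp only [Q, hu0]; simp
      rw [← h0, this, mul_zero]
    · have hs : Real.sqrt (N u) ^ 2 = N u := Real.sq_sqrt hNn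
      have hsp : 0 < Real.sqrt (N u) := Real.sqrt_pos.2 hpos
      set a := (Real.sqrt (N u))⁻¹ with ha
      have hap : 0 < a := inv_pos.2 hsp
      have haN : a ^ 2 * N u = 1 := by
        rw [ha, inv_pow, hs, inv_mul_cancel₀ hpos.ne']
      have hmem : (fun r => a * u r) ∈ K :=
        ⟨by rw [hNscale, haN], fun r => mul_nonneg hap.le (abs_nonneg _)⟩
      have h1 := hzmin hmem
      simp only [Set.mem_ofPred_eq] at h1
      rw [hscale] at h1
      have h2 : l * N u ≤ a ^ 2 * Q u * N u := mul_le_mul_of_nonneg_right h1 hNn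
      have h3 : a ^ 2 * Q u * N u = Q u := by
        rw [mul_assoc, mul_comm (Q u), ← mul_assoc, haN, one_mul]
      linarith
  -- Euler-Lagrange
  have hEL : ∀ r : U, ∑ t : U, gram M r t * z t = l * z r := by
    intro r
    have h1 : ∀ ε : ℝ, 0 ≤ 2 * ε * (∑ t : U, gram M r t * z t - l * z r) + ε ^ 2 * (2 - l) := by
      intro ε
      have h2 := hall (fun t => z t + ε * (if t = r then 1 else 0))
      have h3 : N (fun t => z t + ε * (if t = r then 1 else 0)) = 1 + 2 * ε * z r + ε ^ 2 := by
        have e1 : ∀ t : U, (z t + ε * (if t = r then 1 else 0)) ^ 2 =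
            z t ^ 2 + (if t = r then 2 * ε * z t + ε ^ 2 else 0) := by
          intro t
          split_ifs <;> ring
        simp only [N, e1, Finset.sum_add_distrib, Finset.sum_ite_eq', Finset.mem_univ, if_true]
        have : ∑ t : U, z t ^ 2 = 1 := hz1
        rw [this]; ring
      have h4 : Q (fun t => z t + ε * (if t = r then 1 else 0)) =
          l + 2 * ε * (∑ t : U, gram M r t * z t) + 2 * ε ^ 2 := by
        have e1 : ∀ s t : U, gram M s t * (z s + ε * (if s = r then 1 else 0)) *
            (z t + ε * (if t = r then 1 else 0)) =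
            gram M s t * z s * z t + (if s = r then ε * (gram M s t * z t) else 0)
            + (if t = r then ε * (gram M s t * z s) else 0)
            + (if s = r then (if t = r then ε ^ 2 * gram M s t else 0) else 0) := by
          intro s t
          split_ifs <;> ring
        simp only [Q, e1, Finset.sum_add_distrib]
        have s1 : ∑ s : U, ∑ t : U, (if s = r then ε * (gram M s t * z t) else 0) =
            ε * ∑ t : U, gram M r t * z t := by
          rw [Finset.sum_comm, Finset.mul_sum]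
          refine Finset.sum_congr rfl fun t _ => ?_
          simp
        have s2 : ∑ s : U, ∑ t : U, (if t = r then ε * (gram M s t * z s) else 0) =
            ε * ∑ t : U, gram M r t * z t := by
          rw [Finset.mul_sum]
          refine Finset.sum_congr rfl fun t _ => ?_
          simp [gram_comm (t : B) r]
        have s3 : ∑ s : U, ∑ t : U,
            (if s = r then (if t = r then ε ^ 2 * gram M s t else 0) else 0) = 2 * ε ^ 2 := by
          rw [Finset.sum_eq_single r]
          · simp [gram_self]; ring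
          · intro b _ hb; simp [hb]
          · simp
        rw [s1, s2, s3]
        have : ∑ s : U, ∑ t : U, gram M s t * z s * z t = l := rfl
        rw [this]; ring
      rw [h3, h4] at h2
      nlinarith [h2]
    set D := ∑ t : U, gram M r t * z t - l * z r with hD
    have hD0 : D = 0 := by
      by_contra hne
      -- choose ε = - s D
      have hq : ∀ s : ℝ, 0 < s → 2 * D ^ 2 ≤ s * D ^ 2 * (2 - l) := by
        intro s hs
        have := h1 (-(s * D))
        have e : 2 * -(s * D) * D + (-(s * D)) ^ 2 * (2 - l) =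
            s * (s * D ^ 2 * (2 - l) - 2 * D ^ 2) := by ring
        rw [e] at this
        have := nonneg_of_mul_nonneg_right this hs
        linarith
      have hD2 : 0 < D ^ 2 := by positivity
      by_cases h2l : 2 - l ≤ 0
      · have := hq 1 one_pos
        nlinarith
      · push Not at h2l
        have := hq (1 / (2 - l)) (by positivity)
        have e : 1 / (2 - l) * D ^ 2 * (2 - l) = D ^ 2 := by field_simp
        rw [e] at this
        linarith
    linarith
  have hBU : ∀ r (hr : r ∈ U), BU M U (ext z) r = l * z ⟨r, hr⟩ := by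
    intro r hr
    rw [← hEL ⟨r, hr⟩, BU, ← Finset.sum_coe_sort U]
    refine Finset.sum_congr rfl fun t _ => ?_
    simp [ext]
  refine ⟨l, ext z, ?_, fun r hr => by simp [ext, hr], fun r hr => by rw [hBU r hr]; simp [ext, hr]⟩
  refine pos_of_conn hc (fun r hr => by simpa [ext, hr] using hz2 ⟨r, hr⟩) (fun r hr h0 => ?_) ?_
  · rw [hBU r hr]
    simp only [ext, hr, dite_true] at h0
    rw [h0, mul_zero]
  · by_contra hcon
    push Not at hcon
    have : N z = 0 := by
      refine Finset.sum_eq_zero fun r _ => ?_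
      have := hcon r.1 r.2
      simp only [ext, r.2, dite_true] at this
      rw [this]; simp
    rw [this] at hz1
    exact zero_ne_one hz1

end Vale.Agent.P203.Vin
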