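import Vale.Agent.P203.Cox0.Par
import Vale.Agent.P203.Vin.MMat
import Mathlib.Algebra.Order.Chebyshev

/-! P203, block VIN, part 2: finiteness of parabolic subgroups and Vinberg vectors.

* `finite_of_vec`: `w > 0`, `B_U w > 0` on `U` imply that `W_U` is finite.
* `vec_of_finite`: `W_U` finite gives `w ≥ 1` on `U` with `B_U w = 2`.
* `finite_iff`.
* `vec_of_infinite`: `U` connected and `W_U` infinite: `w > 0`, `B_U w = l w`, `l ≤ 0`.
* `exists_component`: an infinite `W_U` has a connected component `U₁` with `W_{U₁}` infinite.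
* `finite_union`: union of two commuting finite pieces.
* `finite_of_proper`: proper subsets of a connected `U` with `w > 0`, `B_U w ≥ 0` are finite. -/

set_option linter.all false

namespace Vale.Agent.P203.Vin

open Vale.Agent.P203.Cox

variable {B : Type*} {W : Type*} [Group W] {M : CoxeterMatrix B} {cs : CoxeterSystem M W}
variable {U : Finset B} {w x y : B → ℝ}

/-! ### the form on vectors supported in `U` -/

theorem eq_sum_single {v : VSp B} (hv : ∀ i ∉ U, v i = 0) :
    v = ∑ r ∈ U, Finsupp.single r (v r) := by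
  classical
  ext i
  rw [Finsupp.finsetSum_apply]
  by_cases hi : i ∈ U
  · rw [Finset.sum_eq_single i]
    · simp
    · intro b _ hb; simp [Finsupp.single_apply, hb]
    · intro h; exact absurd hi h
  · rw [hv i hi, Finset.sum_eq_zero]
    intro b hb
    have : b ≠ i := fun h => hi (h ▸ hb)
    simp [Finsupp.single_apply, this]

theorem form_single_left {v : VSp B} (hv : ∀ i ∉ U, v i = 0) (r : B) (a : ℝ) :
    form M (Finsupp.single r a) v = a * BU M U v r := by
  conv_lhs => rw [eq_sum_single hv]
  rw [map_sum, BU, Finset.mul_sum]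
  exact Finset.sum_congr rfl fun t _ => by rw [form_single]; ring

theorem form_eq {u v : VSp B} (hu : ∀ i ∉ U, u i = 0) (hv : ∀ i ∉ U, v i = 0) :
    form M u v = ∑ r ∈ U, u r * BU M U v r := by
  conv_lhs => rw [eq_sum_single hu]
  rw [map_sum, LinearMap.sum_apply]
  exact Finset.sum_congr rfl fun r _ => form_single_left hv r _

theorem act_supp {u : W} (hu : u ∈ parab cs (U : Set B)) {v : VSp B} (hv : ∀ i ∉ U, v i = 0) :
    ∀ i ∉ U, act cs u v i = 0 := fun i hi => by
  rw [act_parab_apply hu v (by simpa using hi), hv i hi]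

/-! ### finiteness from a positive vector -/

theorem finite_of_vec (hw : ∀ r ∈ U, 0 < w r) (hB : ∀ r ∈ U, 0 < BU M U w r) :
    Finite (parab cs (U : Set B)) := by
  classical
  rcases U.eq_empty_or_nonempty with rfl | hne
  · rw [Finset.coe_empty, parab_empty]; infer_instance
  by_contra hinf
  rw [not_finite_iff_infinite] at hinf
  obtain ⟨c, hc, hquad⟩ := quad_lower (M := M) hw hB
  -- the base point
  set v : VSp B := ∑ r ∈ U, Finsupp.single r (w r) with hv
  have hvU : ∀ r ∈ U, v r = w r := by
    intro r hr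
    rw [hv, Finsupp.finsetSum_apply, Finset.sum_eq_single r]
    · simp
    · intro b _ hb; simp [Finsupp.single_apply, hb]
    · intro h; exact absurd hr h
  have hvs : ∀ i ∉ U, v i = 0 := by
    intro i hi
    rw [hv, Finsupp.finsetSum_apply, Finset.sum_eq_zero]
    intro b hb
    have : b ≠ i := fun h => hi (h ▸ hb)
    simp [Finsupp.single_apply, this]
  have hvB : ∀ r ∈ U, 0 < BU M U v r := fun r hr => by
    rw [BU_congr hvU]; exact hB r hr
  obtain ⟨r0, hr0, hmin⟩ := Finset.exists_min_image U (fun r => BU M U v r) hne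
  set m0 := BU M U v r0 with hm0
  have hm0pos : 0 < m0 := hvB r0 hr0
  -- separation
  have hsep : ∀ u ∈ parab cs (U : Set B), u ≠ 1 →
      m0 / 2 ≤ ∑ t ∈ U, |(v - act cs u v) t| := by
    intro u hu hu1
    have hus : ∀ i ∉ U, (v - act cs u v) i = 0 := fun i hi => by
      rw [Finsupp.sub_apply, hvs i hi, act_supp hu hvs i hi, sub_zero]
    obtain ⟨r, hr, hdesc⟩ := exists_desc_parab (inv_mem hu) (inv_ne_one.2 hu1)
    have hrU : r ∈ U := by simpa using hr
    have hneg : NN (-(act cs u⁻¹ (Finsupp.single r 1))) := length_gt_iff_NN.1 hdesc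
    have h1 : form M (Finsupp.single r 1) (act cs u v) ≤ 0 := by
      have e1 : form M (Finsupp.single r 1) (act cs u v) =
          form M (act cs u⁻¹ (Finsupp.single r 1)) v := by
        rw [← form_act (cs := cs) u⁻¹ (Finsupp.single r 1) (act cs u v), act_inv_apply_self]
      have hs : ∀ i ∉ U, act cs u⁻¹ (Finsupp.single r (1 : ℝ)) i = 0 :=
        act_supp (inv_mem hu) fun i hi => by
          have : r ≠ i := fun h => hi (h ▸ hrU)
          simp [Finsupp.single_apply, this]
      rw [e1, form_eq hs hvs]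
      refine Finset.sum_nonpos fun t ht => ?_
      have := hneg t
      rw [Finsupp.neg_apply] at this
      exact mul_nonpos_of_nonpos_of_nonneg (by linarith) (hvB t ht).le
    have h2 : m0 ≤ form M (Finsupp.single r 1) (v - act cs u v) := by
      rw [map_sub, form_single_left hvs, one_mul]
      have := hmin r hrU
      linarith
    rw [form_single_left hus, one_mul] at h2
    have h3 : BU M U (⇑(v - act cs u v)) r ≤ ∑ t ∈ U, 2 * |(v - act cs u v) t| := by
      refine Finset.sum_le_sum fun t _ => ?_
      refine (le_abs_self _).trans ?_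
      rw [abs_mul]
      exact mul_le_mul_of_nonneg_right abs_gram_le (abs_nonneg _)
    rw [← Finset.mul_sum] at h3
    linarith
  have hcard : (0 : ℝ) < U.card := by exact_mod_cast hne.card_pos
  set δ : ℝ := c * ((m0 / 2) ^ 2 / U.card) with hδ
  have hδpos : 0 < δ := by positivity
  have hsep2 : ∀ u ∈ parab cs (U : Set B), ∀ u' ∈ parab cs (U : Set B), u ≠ u' →
      δ ≤ ∑ r ∈ U, ∑ t ∈ U, gram M r t * (act cs u v r - act cs u' v r) *
        (act cs u v t - act cs u' v t) := by
    intro u hu u' hu' hne'
    set z : VSp B := v - act cs (u⁻¹ * u') v with hz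
    have hmem : u⁻¹ * u' ∈ parab cs (U : Set B) := mul_mem (inv_mem hu) hu'
    have hzs : ∀ i ∉ U, z i = 0 := fun i hi => by
      rw [hz, Finsupp.sub_apply, hvs i hi, act_supp hmem hvs i hi, sub_zero]
    have h1 := hsep _ hmem (by
      intro h; apply hne'; exact (inv_mul_eq_one.1 h))
    have h2 : (∑ t ∈ U, |z t|) ^ 2 ≤ U.card * ∑ t ∈ U, z t ^ 2 := by
      have := sq_sum_le_card_mul_sum_sq (s := U) (f := fun t => |z t|)
      simpa [sq_abs] using this
    have h3 : (m0 / 2) ^ 2 ≤ (∑ t ∈ U, |z t|) ^ 2 :=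
      pow_le_pow_left₀ (by positivity) h1 2
    have h4 : (m0 / 2) ^ 2 / U.card ≤ ∑ t ∈ U, z t ^ 2 := by
      rw [div_le_iff₀ hcard]; linarith
    have h5 : δ ≤ form M z z := by
      rw [form_eq hzs hzs]
      exact (mul_le_mul_of_nonneg_left h4 hc.le).trans (hquad z)
    have h6 : form M z z = form M (act cs u v - act cs u' v) (act cs u v - act cs u' v) := by
      rw [← form_act (cs := cs) u z z, hz, map_sub, ← act_mul_apply, mul_inv_cancel_left]
    have hds : ∀ i ∉ U, (act cs u v - act cs u' v) i = 0 := fun i hi => by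
      rw [Finsupp.sub_apply, act_supp hu hvs i hi, act_supp hu' hvs i hi, sub_zero]
    rw [h6, form_eq hds hds] at h5
    refine h5.trans (le_of_eq ?_)
    refine Finset.sum_congr rfl fun r _ => ?_
    rw [BU, Finset.mul_sum]
    refine Finset.sum_congr rfl fun t _ => ?_
    rw [Finsupp.sub_apply, Finsupp.sub_apply]; ring
  -- boundedness
  set R : ℝ := form M v v / c + 1 with hR
  have hbd : ∀ u ∈ parab cs (U : Set B), ∀ t ∈ U, act cs u v t ∈ Set.Icc (-R) R := by
    intro u hu t ht
    have h1 : c * ∑ r ∈ U, (act cs u v r) ^ 2 ≤ form M v v := by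
      rw [← form_act (cs := cs) u v v, form_eq (act_supp hu hvs) (act_supp hu hvs)]
      exact hquad _
    have h2 : (act cs u v t) ^ 2 ≤ ∑ r ∈ U, (act cs u v r) ^ 2 :=
      Finset.single_le_sum (f := fun r => (act cs u v r) ^ 2) (fun i _ => sq_nonneg _) ht
    have h3 : (act cs u v t) ^ 2 ≤ form M v v / c := by
      rw [le_div_iff₀ hc]
      have := mul_le_mul_of_nonneg_left h2 hc.le
      linarith
    rw [Set.mem_Icc, ← abs_le]
    have h4 := abs_nonneg (act cs u v t)
    have h5 : |act cs u v t| ^ 2 ≤ form M v v / c := by rw [sq_abs]; exact h3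
    by_contra hcon
    push Not at hcon
    nlinarith
  -- a convergent subsequence
  let f := Infinite.natEmbedding (parab cs (U : Set B))
  let F : ℕ → (U → ℝ) := fun n t => act cs (f n : W) v t
  obtain ⟨a, _, φ, hφ, hlim⟩ := (isCompact_univ_pi fun _ : U =>
    isCompact_Icc (a := -R) (b := R)).tendsto_subseq (x := F)
    (fun n t _ => hbd _ (f n).2 t t.2)
  let Q : (U → ℝ) → ℝ := fun z => ∑ r : U, ∑ t : U, gram M r t * z r * z t
  have hQc : Continuous Q := by
    refine continuous_finset_sum _ fun r _ => continuous_finset_sum _ fun t _ => ?_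
    exact (continuous_const.mul (continuous_apply r)).mul (continuous_apply t)
  have hlim2 : Filter.Tendsto (fun n => F (φ (n + 1)) - F (φ n)) Filter.atTop (nhds 0) := by
    have h1 : Filter.Tendsto (fun n => F (φ (n + 1))) Filter.atTop (nhds a) :=
      hlim.comp (Filter.tendsto_add_atTop_nat 1)
    have h2 : Filter.Tendsto (fun n => F (φ n)) Filter.atTop (nhds a) := hlim
    simpa using h1.sub h2
  have hlim3 : Filter.Tendsto (fun n => Q (F (φ (n + 1)) - F (φ n))) Filter.atTop (nhds 0) := by
    have := (hQc.tendsto 0).comp hlim2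
    have h0 : Q 0 = 0 := by simp [Q]
    rw [h0] at this
    exact this
  have hge : ∀ n, δ ≤ Q (F (φ (n + 1)) - F (φ n)) := by
    intro n
    have hne' : (f (φ (n + 1)) : W) ≠ (f (φ n) : W) := by
      intro h
      have := f.injective (Subtype.ext h)
      exact absurd this (hφ (Nat.lt_succ_self n)).ne'
    have := hsep2 _ (f (φ (n + 1))).2 _ (f (φ n)).2 hne'
    refine this.trans (le_of_eq ?_)
    simp only [Q, F, Pi.sub_apply]
    rw [← Finset.sum_coe_sort U]
    refine Finset.sum_congr rfl fun r _ => ?_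
    rw [← Finset.sum_coe_sort U]
  have := ge_of_tendsto' hlim3 hge
  linarith

/-! ### the vector of a finite parabolic subgroup -/

theorem vec_of_finite (hfin : Finite (parab cs (U : Set B))) :
    ∃ w : B → ℝ, (∀ r ∈ U, 1 ≤ w r) ∧ (∀ r ∉ U, w r = 0) ∧ ∀ r ∈ U, BU M U w r = 2 := by
  classical
  let R : Set (VSp B) := {β | (∃ u ∈ parab cs (U : Set B), ∃ t ∈ U,
    β = act cs u (Finsupp.single t 1)) ∧ NN β}
  have hRfin : R.Finite := by
    have h1 : (Set.range fun p : (parab cs (U : Set B)) × U =>
      act cs (p.1 : W) (Finsupp.single (p.2 : B) (1 : ℝ))).Finite := Set.finite_range _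
    refine h1.subset ?_
    rintro β ⟨⟨u, hu, t, ht, rfl⟩, _⟩
    exact ⟨(⟨u, hu⟩, ⟨t, ht⟩), rfl⟩
  have hsupp1 : ∀ t ∈ U, ∀ i ∉ U, (Finsupp.single t (1 : ℝ)) i = 0 := by
    intro t ht i hi
    have : t ≠ i := fun h => hi (h ▸ ht)
    simp [Finsupp.single_apply, this]
  set R' := hRfin.toFinset with hR'
  have hmemR : ∀ β, β ∈ R' ↔ β ∈ R := fun β => hRfin.mem_toFinset
  set ρ : VSp B := ∑ β ∈ R', β with hρ
  have hsimple : ∀ r ∈ U, Finsupp.single r (1 : ℝ) ∈ R' := by
    intro r hr
    rw [hmemR]
    exact ⟨⟨1, one_mem _, r, hr, by rw [act_one_apply]⟩, NN_single r⟩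
  have hρs : ∀ i ∉ U, ρ i = 0 := by
    intro i hi
    rw [hρ, Finsupp.finsetSum_apply]
    refine Finset.sum_eq_zero fun β hβ => ?_
    obtain ⟨⟨u, hu, t, ht, rfl⟩, _⟩ := (hmemR β).1 hβ
    exact act_supp hu (hsupp1 t ht) i hi
  refine ⟨ρ, fun r hr => ?_, hρs, fun r hr => ?_⟩
  · have h1 : (Finsupp.single r (1 : ℝ)) r ≤ ρ r := by
      rw [hρ, Finsupp.finsetSum_apply]
      exact Finset.single_le_sum (f := fun β : VSp B => β r)
        (fun β hβ => ((hmemR β).1 hβ).2 r) (hsimple r hr)
    simpa using h1
  · -- `s_r` permutes the other roots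
    have hr' : cs.simple r ∈ parab cs (U : Set B) := simple_mem_parab (by simpa using hr)
    have hperm : ∀ β ∈ R'.erase (Finsupp.single r 1),
        act cs (cs.simple r) β ∈ R'.erase (Finsupp.single r 1) := by
      intro β hβ
      obtain ⟨hβne, hβR⟩ := Finset.mem_erase.1 hβ
      obtain ⟨⟨u, hu, t, ht, rfl⟩, hNN⟩ := (hmemR β).1 hβR
      have hform : form M (act cs u (Finsupp.single t 1)) (act cs u (Finsupp.single t 1)) = 2 := by
        rw [form_act, datum_act, gram_self]
      have hNN2 : NN (act cs (cs.simple r) (act cs u (Finsupp.single t 1))) := by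
        rw [← act_mul_apply]
        rcases lt_or_gt_simple (cs := cs) (cs.simple r * u) t with h | h
        · exact length_lt_iff_NN.1 h
        · exfalso
          have hneg := length_gt_iff_NN.1 h
          rw [act_mul_apply] at hneg
          set β := act cs u (Finsupp.single t (1 : ℝ)) with hβ'
          rw [act_simple] at hneg
          have hzero : ∀ k, k ≠ r → β k = 0 := by
            intro k hk
            have h1 := hneg k
            rw [Finsupp.neg_apply, Finsupp.sub_apply, Finsupp.smul_apply,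
              Finsupp.single_eq_of_ne hk] at h1
            simp at h1
            exact le_antisymm h1 (hNN k)
          have hβ1 : β = Finsupp.single r (β r) := by
            ext k
            by_cases hk : k = r
            · subst hk; simp
            · rw [hzero k hk, Finsupp.single_eq_of_ne hk]
          rw [hβ1, form_single, gram_self] at hform
          have h2 : β r = 1 := by
            have := hNN r
            nlinarith
          rw [h2] at hβ1
          exact hβne hβ1
      refine Finset.mem_erase.2 ⟨?_, (hmemR _).2 ⟨⟨cs.simple r * u, mul_mem hr' hu, t, ht, by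
        rw [act_mul_apply]⟩, hNN2⟩⟩
      intro h
      have h1 : act cs u (Finsupp.single t (1 : ℝ)) = -Finsupp.single r 1 := by
        have := congrArg (act cs (cs.simple r)) h
        rwa [← act_mul_apply (cs.simple r), cs.simple_mul_simple_self, act_one_apply,
          act_simple_self] at this
      have h2 := hNN r
      rw [h1] at h2
      simp at h2
      linarith
    have hinvol : ∀ β, act cs (cs.simple r) (act cs (cs.simple r) β) = β := fun β => by
      rw [← act_mul_apply, cs.simple_mul_simple_self, act_one_apply]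
    have hsum : ∑ β ∈ R'.erase (Finsupp.single r 1), act cs (cs.simple r) β =
        ∑ β ∈ R'.erase (Finsupp.single r 1), β :=
      Finset.sum_nbij' (fun β => act cs (cs.simple r) β) (fun β => act cs (cs.simple r) β)
        hperm hperm (fun β _ => hinvol β) (fun β _ => hinvol β) (fun β _ => rfl)
    have hρ1 : ρ = Finsupp.single r 1 + ∑ β ∈ R'.erase (Finsupp.single r 1), β := by
      rw [hρ]
      exact (Finset.add_sum_erase R' (fun β => β) (hsimple r hr)).symm
    have hρ2 : act cs (cs.simple r) ρ = ρ - (2 : ℝ) • Finsupp.single r 1 := by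
      conv_lhs => rw [hρ1]
      rw [map_add, map_sum, hsum, act_simple_self]
      conv_rhs => rw [hρ1]
      module
    rw [act_simple] at hρ2
    have h3 := congrArg (fun z : VSp B => z r) (sub_right_injective hρ2)
    simp only [Finsupp.smul_apply, Finsupp.single_eq_same, smul_eq_mul, mul_one] at h3
    rw [form_single_left hρs, one_mul] at h3
    exact h3

theorem finite_iff : Finite (parab cs (U : Set B)) ↔
    ∃ w : B → ℝ, (∀ r ∈ U, 0 < w r) ∧ ∀ r ∈ U, 0 < BU M U w r := by
  constructor
  · intro h
    obtain ⟨w, h1, _, h2⟩ := vec_of_finite h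
    exact ⟨w, fun r hr => by linarith [h1 r hr], fun r hr => by rw [h2 r hr]; norm_num⟩
  · rintro ⟨w, h1, h2⟩
    exact finite_of_vec h1 h2

theorem finite_mono {A : Finset B} (hA : A ⊆ U) (h : Finite (parab cs (U : Set B))) :
    Finite (parab cs (A : Set B)) :=
  Finite.Set.subset (parab cs (U : Set B) : Set W) (parab_mono (by exact_mod_cast hA))

/-- the vector of an infinite connected parabolic subgroup -/
theorem vec_of_infinite (hc : Conn M U) (hinf : ¬ Finite (parab cs (U : Set B))) :
    ∃ (l : ℝ) (w : B → ℝ), l ≤ 0 ∧ (∀ r ∈ U, 0 < w r) ∧ (∀ r ∉ U, w r = 0) ∧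
      ∀ r ∈ U, BU M U w r = l * w r := by
  have hne : U.Nonempty := by
    rw [Finset.nonempty_iff_ne_empty]
    rintro rfl
    apply hinf
    rw [Finset.coe_empty, parab_empty]; infer_instance
  obtain ⟨l, w, h1, h2, h3⟩ := perron (M := M) hne hc
  refine ⟨l, w, ?_, h1, h2, h3⟩
  by_contra hl
  push Not at hl
  exact hinf (finite_of_vec h1 fun r hr => by rw [h3 r hr]; exact mul_pos hl (h1 r hr))

theorem finite_union [DecidableEq B] {A A' : Finset B} (hcomm : ∀ s ∈ A, ∀ t ∈ A', M s t = 2)
    (hA : Finite (parab cs (A : Set B))) (hA' : Finite (parab cs (A' : Set B))) :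
    Finite (parab cs ((A ∪ A' : Finset B) : Set B)) := by
  have hdisj : Disjoint A A' := by
    rw [Finset.disjoint_left]
    intro a ha ha'
    have := hcomm a ha a ha'
    rw [M.diagonal] at this
    omega
  obtain ⟨w, h1, h2, h3⟩ := vec_of_finite hA
  obtain ⟨w', h1', h2', h3'⟩ := vec_of_finite hA'
  refine finite_of_vec (w := fun t => w t + w' t) (fun r hr => ?_) (fun r hr => ?_)
  · rcases Finset.mem_union.1 hr with h | h
    · rw [h2' r (Finset.disjoint_left.1 hdisj h)]; linarith [h1 r h]
    · rw [h2 r (Finset.disjoint_right.1 hdisj h)]; linarith [h1' r h]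
  · have e : BU M (A ∪ A') (fun t => w t + w' t) r = BU M A w r + BU M A' w' r := by
      rw [BU, Finset.sum_union hdisj]
      congr 1
      · exact Finset.sum_congr rfl fun t ht => by
          rw [h2' t (Finset.disjoint_left.1 hdisj ht), add_zero]
      · exact Finset.sum_congr rfl fun t ht => by
          rw [h2 t (Finset.disjoint_right.1 hdisj ht), zero_add]
    rw [e]
    rcases Finset.mem_union.1 hr with h | h
    · rw [h3 r h]
      have : BU M A' w' r = 0 := Finset.sum_eq_zero fun t ht => by
        rw [gram_eq_zero (hcomm r h t ht), zero_mul]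
      rw [this]; norm_num
    · rw [h3' r h]
      have : BU M A w r = 0 := Finset.sum_eq_zero fun t ht => by
        rw [gram_comm, gram_eq_zero (hcomm t ht r h), zero_mul]
      rw [this]; norm_num

/-- an infinite parabolic subgroup has an infinite connected component -/
theorem exists_component (hinf : ¬ Finite (parab cs (U : Set B))) :
    ∃ U₁ ⊆ U, U₁.Nonempty ∧ Conn M U₁ ∧ ¬ Finite (parab cs (U₁ : Set B)) ∧
      ∀ s ∈ U₁, ∀ t ∈ U, t ∉ U₁ → M s t = 2 := by
  classical
  let P : Finset (Finset B) := U.powerset.filter fun A =>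
    ¬ Finite (parab cs (A : Set B)) ∧ ∀ s ∈ A, ∀ t ∈ U, t ∉ A → M s t = 2
  have hP : P.Nonempty := ⟨U, Finset.mem_filter.2 ⟨Finset.mem_powerset_self U, hinf,
    fun s _ t ht h => absurd ht h⟩⟩
  obtain ⟨U₁, hU₁, hmin⟩ := Finset.exists_min_image P Finset.card hP
  obtain ⟨hsub, hinf1, hcomm⟩ := Finset.mem_filter.1 hU₁
  rw [Finset.mem_powerset] at hsub
  refine ⟨U₁, hsub, ?_, ?_, hinf1, hcomm⟩
  · rw [Finset.nonempty_iff_ne_empty]
    rintro rfl
    apply hinf1
    rw [Finset.coe_empty, parab_empty]; infer_instance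
  · intro A hA hAne hAU
    by_contra hcon
    push Not at hcon
    have hAlt : A.card < U₁.card := Finset.card_lt_card (hA.ssubset_of_ne hAU)
    have hBlt : (U₁ \ A).card < U₁.card := by
      refine Finset.card_lt_card (Finset.sdiff_subset.ssubset_of_ne ?_)
      intro h
      obtain ⟨a, ha⟩ := hAne
      have := hA ha
      rw [← h] at this
      exact (Finset.mem_sdiff.1 this).2 ha
    have hAfin : Finite (parab cs (A : Set B)) := by
      by_contra hAinf
      refine absurd (hmin A (Finset.mem_filter.2 ⟨Finset.mem_powerset.2 (hA.trans hsub), hAinf,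
        fun s hs t ht hts => ?_⟩)) (by omega)
      by_cases htU : t ∈ U₁
      · exact hcon s hs t htU hts
      · exact hcomm s (hA hs) t ht htU
    have hBfin : Finite (parab cs ((U₁ \ A : Finset B) : Set B)) := by
      by_contra hBinf
      refine absurd (hmin _ (Finset.mem_filter.2 ⟨Finset.mem_powerset.2
        (Finset.sdiff_subset.trans hsub), hBinf, fun s hs t ht hts => ?_⟩)) (by omega)
      obtain ⟨hs1, hs2⟩ := Finset.mem_sdiff.1 hs
      by_cases htU : t ∈ U₁
      · have htA : t ∈ A := by
          by_contra h; exact hts (Finset.mem_sdiff.2 ⟨htU, h⟩)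
        rw [M.symmetric]
        exact hcon t htA s hs1 hs2
      · exact hcomm s hs1 t ht htU
    apply hinf1
    have := finite_union (cs := cs) (A := A) (A' := U₁ \ A) (fun s hs t ht => by
      obtain ⟨h1, h2⟩ := Finset.mem_sdiff.1 ht
      exact hcon s hs t h1 h2) hAfin hBfin
    rwa [Finset.union_sdiff_of_subset hA] at this

/-- proper subsets of a connected set with `w > 0`, `B_U w ≥ 0` generate finite subgroups
(for instance all proper subsets of an affine `U`) -/
theorem finite_of_proper (hc : Conn M U) (hw : ∀ r ∈ U, 0 < w r) (hB : ∀ r ∈ U, 0 ≤ BU M U w r)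
    {A : Finset B} (hA : A ⊂ U) : Finite (parab cs (A : Set B)) := by
  classical
  by_contra hinf
  obtain ⟨A₁, hA₁, hne, hc1, hinf1, _⟩ := exists_component hinf
  obtain ⟨l, z, hl, hz, hz0, hzB⟩ := vec_of_infinite hc1 hinf1
  have hsub : A₁ ⊆ U := hA₁.trans hA.1
  have hneU : A₁ ≠ U := by
    rintro rfl
    exact hA.2 hA₁
  obtain ⟨s, hs, t, ht, htA, hst⟩ := hc A₁ hsub hne hneU
  have h1 : ∑ r ∈ A₁, w r * BU M A₁ z r ≤ 0 := Finset.sum_nonpos fun r hr => by
    rw [hzB r hr]
    have := mul_nonneg (hw r (hsub hr)).le (hz r hr).le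
    nlinarith
  rw [BU_symm] at h1
  have h2 : 0 < ∑ r ∈ A₁, z r * BU M A₁ w r := by
    have hterm : ∀ r ∈ A₁, ∑ t ∈ U \ A₁, gram M r t * w t ≤ 0 := fun r hr =>
      Finset.sum_nonpos fun t ht => by
        obtain ⟨h1, h2⟩ := Finset.mem_sdiff.1 ht
        exact mul_nonpos_of_nonpos_of_nonneg (gram_nonpos fun h => h2 (h ▸ hr)) (hw t h1).le
    refine Finset.sum_pos' (fun r hr => ?_) ⟨s, hs, ?_⟩
    · rw [BU_subset hsub]
      exact mul_nonneg (hz r hr).le (by linarith [hB r (hsub hr), hterm r hr])
    · rw [BU_subset hsub]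
      have : ∑ t ∈ U \ A₁, gram M s t * w t < 0 := by
        have h3 : ∑ t ∈ U \ A₁, gram M s t * w t < ∑ t ∈ U \ A₁, (0 : ℝ) := by
          refine Finset.sum_lt_sum (fun t ht => ?_) ⟨t, Finset.mem_sdiff.2 ⟨ht, htA⟩, ?_⟩
          · obtain ⟨h1, h2⟩ := Finset.mem_sdiff.1 ht
            exact mul_nonpos_of_nonpos_of_nonneg (gram_nonpos fun h => h2 (h ▸ hs)) (hw t h1).le
          · exact mul_neg_of_neg_of_pos (gram_neg (fun h => htA (h ▸ hs)) hst) (hw t ht)
        simpa using h3
      exact mul_pos (hz s hs) (by linarith [hB s (hsub hs)])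
  linarith

end Vale.Agent.P203.Vin
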