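import Vale.Agent.P203.Defs
import Vale.Agent.P203.Vin.Vinberg

/-! P203, block VIN, part 3: the results of `Vinberg.lean` for `Spherical M U` of `Defs.lean`. -/

set_option linter.all false

namespace Vale.Agent.P203.Vin

open Vale.Agent.P203.Cox

variable {S : Type} {M : CoxeterMatrix S} {U : Finset S} {w x y : S → ℝ}

theorem spherical_iff_parab : Spherical M U ↔ Finite (parab M.toCoxeterSystem (U : Set S)) :=
  Iff.rfl

/-- `U` is spherical iff `B_U w > 0` for some `w > 0` -/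
theorem spherical_iff : Spherical M U ↔
    ∃ w : S → ℝ, (∀ r ∈ U, 0 < w r) ∧ ∀ r ∈ U, 0 < BU M U w r :=
  spherical_iff_parab.trans finite_iff

/-- Vinberg vector of a spherical set -/
theorem spherical_vec (h : Spherical M U) :
    ∃ w : S → ℝ, (∀ r ∈ U, 1 ≤ w r) ∧ (∀ r ∉ U, w r = 0) ∧ ∀ r ∈ U, BU M U w r = 2 :=
  vec_of_finite (spherical_iff_parab.1 h)

/-- Vinberg vector of a connected nonspherical set: `B_U w = l w`, `l ≤ 0`
(`l = 0`: affine type, `l < 0`: indefinite type) -/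
theorem nonspherical_vec (hc : Conn M U) (h : ¬ Spherical M U) :
    ∃ (l : ℝ) (w : S → ℝ), l ≤ 0 ∧ (∀ r ∈ U, 0 < w r) ∧ (∀ r ∉ U, w r = 0) ∧
      ∀ r ∈ U, BU M U w r = l * w r :=
  vec_of_infinite (cs := M.toCoxeterSystem) hc h

/-- a nonspherical set has a nonspherical connected component -/
theorem exists_nonspherical_component (h : ¬ Spherical M U) :
    ∃ U₁ ⊆ U, U₁.Nonempty ∧ Conn M U₁ ∧ ¬ Spherical M U₁ ∧
      ∀ s ∈ U₁, ∀ t ∈ U, t ∉ U₁ → M s t = 2 :=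
  exists_component (cs := M.toCoxeterSystem) h

/-- the vector used in the level filtration of a nonspherical `U`: nonnegative, positive exactly
on a nonspherical component, with `B_U w = l w`, `l ≤ 0`, on all of `U` -/
theorem nonspherical_vec' (h : ¬ Spherical M U) :
    ∃ U₁ ⊆ U, U₁.Nonempty ∧ Conn M U₁ ∧ ¬ Spherical M U₁ ∧
      (∀ s ∈ U₁, ∀ t ∈ U, t ∉ U₁ → M s t = 2) ∧
      ∃ (l : ℝ) (w : S → ℝ), l ≤ 0 ∧ (∀ r ∈ U₁, 0 < w r) ∧ (∀ r ∉ U₁, w r = 0) ∧
        ∀ r ∈ U, BU M U w r = l * w r := by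
  classical
  obtain ⟨U₁, hsub, hne, hc, hns, hcomm⟩ := exists_nonspherical_component h
  obtain ⟨l, w, hl, h1, h2, h3⟩ := nonspherical_vec hc hns
  refine ⟨U₁, hsub, hne, hc, hns, hcomm, l, w, hl, h1, h2, fun r hr => ?_⟩
  have e : BU M U w r = BU M U₁ w r := by
    have := BU_subset (M := M) (x := w) hsub r
    rw [this]
    have h0 : ∑ t ∈ U \ U₁, gram M r t * w t = 0 := Finset.sum_eq_zero fun t ht => by
      rw [h2 t (Finset.mem_sdiff.1 ht).2, mul_zero]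
    rw [h0, sub_zero]
  rw [e]
  by_cases hr1 : r ∈ U₁
  · exact h3 r hr1
  · rw [h2 r hr1, mul_zero]
    refine Finset.sum_eq_zero fun t ht => ?_
    rw [gram_comm, gram_eq_zero (hcomm t ht r hr hr1), zero_mul]

theorem spherical_union [DecidableEq S] {A A' : Finset S} (hcomm : ∀ s ∈ A, ∀ t ∈ A', M s t = 2)
    (hA : Spherical M A) (hA' : Spherical M A') : Spherical M (A ∪ A') :=
  finite_union (cs := M.toCoxeterSystem) hcomm hA hA'

/-- proper subsets of a connected set with `w > 0`, `B_U w ≥ 0` are spherical -/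
theorem spherical_of_proper (hc : Conn M U) (hw : ∀ r ∈ U, 0 < w r)
    (hB : ∀ r ∈ U, 0 ≤ BU M U w r) {A : Finset S} (hA : A ⊂ U) : Spherical M A :=
  finite_of_proper (cs := M.toCoxeterSystem) hc hw hB hA

/-- `B_U x ≥ 0` implies `x ≥ 0` for spherical `U` -/
theorem Spherical.nonneg (h : Spherical M U) (hx : ∀ r ∈ U, 0 ≤ BU M U x r) :
    ∀ r ∈ U, 0 ≤ x r := by
  obtain ⟨w, h1, h2⟩ := spherical_iff.1 h
  exact nonneg_of_BU_nonneg h1 h2 hx

theorem Spherical.pos (h : Spherical M U) (hc : Conn M U) (hx : ∀ r ∈ U, 0 ≤ BU M U x r)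
    (hne : ∃ r ∈ U, x r ≠ 0) : ∀ r ∈ U, 0 < x r := by
  obtain ⟨w, h1, h2⟩ := spherical_iff.1 h
  exact pos_of_BU_nonneg hc h1 h2 hx hne

theorem Spherical.quad_pos (h : Spherical M U) (hx : ∃ r ∈ U, x r ≠ 0) :
    0 < ∑ r ∈ U, x r * BU M U x r := by
  obtain ⟨w, h1, h2⟩ := spherical_iff.1 h
  exact Vin.quad_pos h1 h2 hx

theorem Spherical.BU_inj (h : Spherical M U) (hxy : ∀ r ∈ U, BU M U x r = BU M U y r) :
    ∀ r ∈ U, x r = y r := by
  obtain ⟨w, h1, h2⟩ := spherical_iff.1 h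
  exact Vin.BU_inj h1 h2 hxy

theorem Spherical.BU_surj (h : Spherical M U) (y : S → ℝ) :
    ∃ x : S → ℝ, (∀ r ∈ U, BU M U x r = y r) ∧ ∀ r ∉ U, x r = 0 := by
  obtain ⟨w, h1, h2⟩ := spherical_iff.1 h
  exact Vin.BU_surj h1 h2 y

/-- solution with nonnegative right hand side: nonnegative solution -/
theorem Spherical.solve_nonneg (h : Spherical M U) (hy : ∀ r ∈ U, 0 ≤ y r) :
    ∃ x : S → ℝ, (∀ r ∈ U, BU M U x r = y r) ∧ (∀ r ∉ U, x r = 0) ∧ ∀ r ∈ U, 0 ≤ x r := by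
  obtain ⟨x, h1, h2⟩ := Spherical.BU_surj h y
  exact ⟨x, h1, h2, Spherical.nonneg h fun r hr => by rw [h1 r hr]; exact hy r hr⟩

end Vale.Agent.P203.Vin
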